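import Mathlib.Analysis.SpecialFunctions.Exp
import Mathlib.LinearAlgebra.Matrix.SpecialLinearGroup
import Mathlib.Topology.Algebra.Group.Matrix
import Mathlib.Topology.Algebra.Group.Quotient
import Mathlib.NumberTheory.NumberField.Discriminant.Defs
import Mathlib.Algebra.Algebra.Operations

/-!
# Packets of periodic torus orbits in the space of unimodular lattices

`Space n` is `SL(n,ℝ) ⧸ SL(n,ℤ)`, identified with the space of covolume-one lattices in `ℝⁿ`
through `g ↦ g ℤⁿ` (column vectors; this is the transpose of `SL(n,ℤ) \ SL(n,ℝ)` with row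
vectors and right action).
-/

namespace Vale.Agent.P007

open Matrix NumberField

variable (n : ℕ)

/-- The subgroup `SL(n,ℤ)` of `SL(n,ℝ)`. -/
def intSL : Subgroup (SpecialLinearGroup (Fin n) ℝ) :=
  (SpecialLinearGroup.map (n := Fin n) (Int.castRingHom ℝ)).range

/-- The space of covolume-one lattices in `ℝⁿ`. -/
abbrev Space : Type := SpecialLinearGroup (Fin n) ℝ ⧸ intSL n

variable {n}

/-- The lattice `g ℤⁿ`. -/
def latticeOf (g : SpecialLinearGroup (Fin n) ℝ) : Set (Fin n → ℝ) :=
  Set.range fun v : Fin n → ℤ => (g : Matrix (Fin n) (Fin n) ℝ) *ᵥ fun j => (v j : ℝ)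

/-- The element `diag(e^{u_1}, …, e^{u_n})`, where `∑ u_j = 0`, of `SL(n,ℝ)`. -/
noncomputable def diagExp (u : {u : Fin n → ℝ // ∑ j, u j = 0}) :
    SpecialLinearGroup (Fin n) ℝ :=
  ⟨diagonal fun j => Real.exp (u.1 j), by rw [det_diagonal, ← Real.exp_sum, u.2, Real.exp_zero]⟩

/-- The orbit of a lattice under the group of positive diagonal matrices of determinant one. -/
def orbit (x : Space n) : Set (Space n) := Set.range fun u : {u : Fin n → ℝ // ∑ j, u j = 0} => diagExp u • x

variable {K : Type} [Field K]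

/-- `I` is a proper invertible fractional ideal of `O`. -/
def IsPacketIdeal (O : Subring K) (I : Submodule O K) : Prop :=
  (∀ α : K, (∀ x ∈ I, α * x ∈ I) ↔ α ∈ O) ∧ ∃ J : Submodule O K, I * J = 1

/-- The packet attached to `(O, σ)`: all orbits of the unimodular lattices `c σ(I) w`, where `I` is
a proper invertible fractional `O`-ideal, `w` is a vector of signs and `c > 0` is the scalar for
which the lattice has covolume one. -/
def packet (O : Subring K) (σ : Fin n ≃ (K →+* ℝ)) : Set (Set (Space n)) :=
  {P | ∃ (I : Submodule O K) (w : Fin n → ℝ) (c : ℝ) (g : SpecialLinearGroup (Fin n) ℝ),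
    IsPacketIdeal O I ∧ (∀ j, w j = 1 ∨ w j = -1) ∧ 0 < c ∧
    latticeOf g = (fun α : K => fun j => w j * (c * σ j α)) '' (I : Set K) ∧
    P = orbit (g : Space n)}

variable [NumberField K]

/-- `|Disc O| = |Disc K| [𝓞_K : O]²` for an order `O` of `K`. -/
noncomputable def orderDisc (O : Subring K) : ℕ :=
  (discr K).natAbs * (O.comap (algebraMap (𝓞 K) K)).toAddSubgroup.index ^ 2

end Vale.Agent.P007
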