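import Vale.Agent.P007.Defs
import Mathlib.FieldTheory.Fixed
import Mathlib.LinearAlgebra.Matrix.ToLinearEquiv
import Mathlib.RingTheory.Norm.Defs
import Mathlib.RingTheory.Trace.Basic
import Mathlib.LinearAlgebra.FreeModule.Finite.Matrix
import Mathlib.Analysis.SpecialFunctions.Pow.Real
import Mathlib.NumberTheory.NumberField.Norm
import Mathlib.Data.ZMod.Basic
import Mathlib.Algebra.Field.ZMod
import Mathlib.NumberTheory.NumberField.InfinitePlace.Basic

namespace Vale.Agent.P007

open Matrix NumberField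

variable {n : ℕ} {K : Type} [Field K] [NumberField K]

/-- The matrix of values of the real embeddings on a basis is invertible. -/
theorem det_embeddingMatrix_ne_zero (b : Module.Basis (Fin n) ℚ K) (σ : Fin n → (K →+* ℝ))
    (hσ : Function.Injective σ) : (Matrix.of fun j k => σ j (b k)).det ≠ 0 := by
  rw [ne_eq, ← Matrix.exists_vecMul_eq_zero_iff]
  rintro ⟨c, hc0, hc⟩
  let τ : Fin n → (K →ₐ[ℚ] ℝ) := fun j => (σ j).toRatAlgHom
  have hτ : Function.Injective τ := fun i j h => hσ (RingHom.ext fun x => DFunLike.congr_fun h x)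
  have hli : LinearIndependent ℝ (fun j => (τ j).toLinearMap) :=
    (linearIndependent_toLinearMap ℚ K ℝ).comp τ hτ
  refine hc0 (funext (Fintype.linearIndependent_iff.1 hli c (b.ext fun k => ?_)))
  have := congrFun hc k
  simpa [vecMul, dotProduct, τ] using this

/-- The norm is the product of `n` distinct real embeddings, `n` being the degree. -/
theorem prod_embeddings_eq_norm (b : Module.Basis (Fin n) ℚ K) (σ : Fin n → (K →+* ℝ))
    (hσ : Function.Injective σ) (x : K) : ∏ j, σ j x = ((Algebra.norm ℚ x : ℚ) : ℝ) := by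
  set V := Matrix.of fun j k => σ j (b k)
  set L := Algebra.leftMulMatrix b x
  have hV : V.det ≠ 0 := det_embeddingMatrix_ne_zero b σ hσ
  have hkey : V * L.map (Rat.castHom ℝ) = diagonal (fun j => σ j x) * V := by
    ext j k
    rw [diagonal_mul, mul_apply]
    have h1 : ∑ l, L l k • b l = x * b k := by
      simp [L, Algebra.leftMulMatrix_eq_repr_mul, b.sum_repr]
    have h2 := congrArg (σ j) h1
    simp only [map_sum, map_mul, Rat.smul_def, map_ratCast] at h2
    simpa [V, mul_comm] using h2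
  have := congrArg Matrix.det hkey
  rw [det_mul, det_mul, det_diagonal,
    show L.map (Rat.castHom ℝ) = (Rat.castHom ℝ).mapMatrix L from rfl, ← RingHom.map_det,
    ← Algebra.norm_eq_matrix_det b x, mul_comm (∏ j, σ j x)] at this
  exact (mul_left_cancel₀ hV this).symm

/-- The product of the embeddings of a unit squares to one. -/
theorem prod_embeddings_unit_sq (b : Module.Basis (Fin n) ℚ K) (σ : Fin n → (K →+* ℝ))
    (hσ : Function.Injective σ) (u : (𝓞 K)ˣ) :
    ∏ j, σ j ((u : 𝓞 K) : K) ^ 2 = 1 := by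
  rw [Finset.prod_pow, prod_embeddings_eq_norm b σ hσ]
  have h := Int.isUnit_iff.1 (u.isUnit.map (Algebra.norm ℤ))
  rw [← Algebra.coe_norm_int]
  rcases h with h | h <;> simp [h]

/-- The ring of integers of `K`, as a subring. -/
def maxOrder (K : Type) [Field K] : Subring K := (integralClosure ℤ K).toSubring

theorem orderDisc_maxOrder : orderDisc (maxOrder K) = (discr K).natAbs := by
  have : (maxOrder K).comap (algebraMap (𝓞 K) K) = ⊤ :=
    top_le_iff.1 fun x _ => x.2
  simp [orderDisc, this]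

/-- The packet of the maximal order is not empty. -/
theorem packet_nonempty (hn : 0 < n) (b : Module.Basis (Fin n) ℤ (𝓞 K))
    (σ : Fin n ≃ (K →+* ℝ)) : (packet (maxOrder K) σ).Nonempty := by
  set V := Matrix.of fun j k => σ j ((b k : 𝓞 K) : K) with hV
  let bQ : Module.Basis (Fin n) ℚ K := b.localizationLocalization ℚ (nonZeroDivisors ℤ) K
  have hd : V.det ≠ 0 := by
    have := det_embeddingMatrix_ne_zero bQ σ σ.injective
    simpa [V, bQ, Module.Basis.localizationLocalization_apply] using this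
  set D := V.det
  set c : ℝ := |D| ^ (-(1 / (n : ℝ))) with hc
  have hcpos : 0 < c := Real.rpow_pos_of_pos (abs_pos.2 hd) _
  have hcn : c ^ n = |D|⁻¹ := by
    rw [hc, ← Real.rpow_natCast, ← Real.rpow_mul (abs_nonneg _), neg_mul,
      one_div_mul_cancel (by positivity), Real.rpow_neg_one]
  let w : Fin n → ℝ := fun j => if j = ⟨0, hn⟩ then (if 0 < D then 1 else -1) else 1
  have hw : ∀ j, w j = 1 ∨ w j = -1 := by
    intro j; simp only [w]; split_ifs <;> simp
  let M : Matrix (Fin n) (Fin n) ℝ := diagonal (fun j => w j * c) * V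
  have hM : M.det = 1 := by
    have : ∏ j, w j = if 0 < D then 1 else -1 := by
      simp only [w]
      rw [Finset.prod_ite_eq' Finset.univ (⟨0, hn⟩ : Fin n)]
      simp
    simp only [M, det_mul, det_diagonal, Finset.prod_mul_distrib, this, Finset.prod_const,
      Finset.card_univ, Fintype.card_fin, hcn]
    change _ * _ * D = 1
    split_ifs with h
    · rw [abs_of_pos h, one_mul, inv_mul_cancel₀ hd]
    · rw [abs_of_nonpos (not_lt.1 h)]
      field_simp
  refine ⟨orbit (QuotientGroup.mk (⟨M, hM⟩ : SpecialLinearGroup (Fin n) ℝ) : Space n),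
    1, w, c, ⟨M, hM⟩, ⟨?_, 1, one_mul 1⟩, hw, hcpos, ?_, rfl⟩
  · intro α
    refine ⟨fun h => ?_, fun hα x hx => ?_⟩
    · obtain ⟨y, hy⟩ := Submodule.mem_one.1 (h 1 (Submodule.mem_one.2 ⟨1, map_one _⟩))
      rw [mul_one] at hy
      exact hy ▸ y.2
    · obtain ⟨y, rfl⟩ := Submodule.mem_one.1 hx
      exact Submodule.mem_one.2 ⟨⟨α * y, mul_mem hα y.2⟩, rfl⟩
  · ext p
    constructor
    · rintro ⟨v, rfl⟩
      refine ⟨(∑ k, v k • b k : 𝓞 K), Submodule.mem_one.2
        ⟨⟨((∑ k, v k • b k : 𝓞 K) : K), (∑ k, v k • b k : 𝓞 K).2⟩, rfl⟩, ?_⟩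
      ext j
      change _ = ((M *ᵥ fun k => (v k : ℝ)) j)
      simp [M, mulVec, dotProduct, V, Finset.mul_sum, Finset.sum_mul, zsmul_eq_mul]
      exact Finset.sum_congr rfl fun k _ => by ring
    · rintro ⟨α, hα, rfl⟩
      obtain ⟨y, rfl⟩ := Submodule.mem_one.1 hα
      set z : 𝓞 K := ⟨(y : K), y.2⟩ with hz
      refine ⟨fun k => b.repr z k, ?_⟩
      ext j
      change (M *ᵥ fun k => ((b.repr z k : ℤ) : ℝ)) j = w j * (c * σ j (z : K))
      conv_rhs => rw [← b.sum_repr z]
      simp [M, mulVec, dotProduct, V, Finset.mul_sum, Finset.sum_mul, zsmul_eq_mul]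
      exact Finset.sum_congr rfl fun k _ => by ring

/-- An element which is nilpotent but nonzero modulo a prime forces that prime to divide the
discriminant. -/
theorem dvd_discr_of_nilpotent_mod (q : ℕ) [Fact q.Prime] (x : 𝓞 K)
    (hx : ¬ (q : 𝓞 K) ∣ x) (e : ℕ) (he : (q : 𝓞 K) ∣ x ^ e) : (q : ℤ) ∣ discr K := by
  classical
  let b := RingOfIntegers.basis K
  rw [← discr_eq_discr K b, ← ZMod.intCast_zmod_eq_zero_iff_dvd, Algebra.discr_def]
  change Int.castRingHom (ZMod q) _ = 0
  rw [RingHom.map_det, ← Matrix.exists_mulVec_eq_zero_iff]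
  have htr : ∀ y : 𝓞 K, ((Algebra.trace ℤ (𝓞 K) (y * x) : ℤ) : ZMod q) = 0 := by
    intro y
    obtain ⟨z, hz⟩ := he
    have hnil : IsNilpotent ((Algebra.leftMulMatrix b (y * x)).map (Int.cast : ℤ → ZMod q)) := by
      refine ⟨e, ?_⟩
      rw [show (Algebra.leftMulMatrix b (y * x)).map (Int.cast : ℤ → ZMod q) =
        (Int.castRingHom (ZMod q)).mapMatrix (Algebra.leftMulMatrix b (y * x)) from rfl,
        ← map_pow, ← map_pow, mul_pow, hz, mul_left_comm, map_mul, map_mul, map_natCast,
        map_natCast]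
      ext i j
      simp [Matrix.natCast_apply, Matrix.mul_apply]
    have h := (Matrix.isNilpotent_trace_of_isNilpotent hnil).eq_zero
    rw [Algebra.trace_eq_matrix_trace b]
    simpa [Matrix.trace] using h
  refine ⟨fun k => (b.repr x k : ZMod q), fun h => hx ?_, funext fun i => ?_⟩
  · have hk : ∀ k, (q : ℤ) ∣ b.repr x k := fun k =>
      (ZMod.intCast_zmod_eq_zero_iff_dvd _ _).1 (congrFun h k)
    choose a ha using hk
    refine ⟨∑ k, a k • b k, ?_⟩
    conv_lhs => rw [← b.sum_repr x]
    simp [ha, Finset.mul_sum, zsmul_eq_mul, mul_assoc]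
  · have hsum : ∑ k, b.repr x k * Algebra.traceForm ℤ (𝓞 K) (b i) (b k) =
        Algebra.trace ℤ (𝓞 K) (b i * x) := by
      conv_rhs => rw [← b.sum_repr x]
      simp only [Finset.mul_sum, map_sum, mul_smul_comm, map_smul, smul_eq_mul,
        Algebra.traceForm_apply]
    have := htr (b i)
    rw [← hsum, Int.cast_sum] at this
    simpa [mulVec, dotProduct, Algebra.traceMatrix_apply, mul_comm] using this

end Vale.Agent.P007
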