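import Mathlib.RingTheory.Polynomial.Eisenstein.Basic
import Mathlib.RingTheory.Polynomial.GaussLemma
import Mathlib.RingTheory.Polynomial.RationalRoot
import Mathlib.RingTheory.PrincipalIdealDomain
import Mathlib.RingTheory.Localization.Integral
import Mathlib.FieldTheory.Perfect
import Mathlib.Algebra.Polynomial.Identities
import Mathlib.Topology.Algebra.Polynomial
import Mathlib.Topology.Order.IntermediateValue
import Mathlib.Analysis.Real.Sqrt
import Mathlib.Algebra.Field.ZMod
import Mathlib.RingTheory.Int.Basic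
import Mathlib.Tactic.LinearCombination
import Mathlib.Data.Nat.Prime.Factorial

namespace Vale.Agent.P007

open Polynomial

/-- `∏_{k < m} (X - L k)`. -/
noncomputable def comb (L : ℤ) (m : ℕ) : ℤ[X] := ∏ k : Fin m, (X - C (L * (k : ℕ)))

theorem comb_monic (L : ℤ) (m : ℕ) : (comb L m).Monic :=
  monic_prod_of_monic _ _ fun _ _ => monic_X_sub_C _

theorem comb_natDegree (L : ℤ) (m : ℕ) : (comb L m).natDegree = m := by
  rw [comb, natDegree_prod_of_monic _ _ fun (k : Fin m) _ => monic_X_sub_C (L * ((k : ℕ) : ℤ))]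
  simp only [natDegree_X_sub_C]
  simp

theorem comb_eval_zero (L : ℤ) {m : ℕ} (hm : 0 < m) : (comb L m).eval 0 = 0 := by
  rw [comb, eval_prod]
  exact Finset.prod_eq_zero (Finset.mem_univ ⟨0, hm⟩) (by simp)

theorem comb_map_zmod {q : ℕ} {L : ℤ} (hL : (q : ℤ) ∣ L) (m : ℕ) :
    (comb L m).map (Int.castRingHom (ZMod q)) = X ^ m := by
  have : ((L : ℤ) : ZMod q) = 0 := (ZMod.intCast_zmod_eq_zero_iff_dvd _ _).2 hL
  rw [comb, Polynomial.map_prod, Finset.prod_congr rfl (g := fun _ => (X : (ZMod q)[X])) fun k _ => by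
    rw [Polynomial.map_sub, map_X, Polynomial.map_C, eq_intCast, Int.cast_mul, this, zero_mul, map_zero, sub_zero]]
  simp

/-- For `|c| < (L/2)^m` the equation `∏_{k<m}(t - L k) = c` has `m` distinct real solutions. -/
theorem exists_comb_roots (L : ℤ) (hL : 0 < L) (m : ℕ) (c : ℝ) (hc : |c| < ((L : ℝ) / 2) ^ m) :
    ∃ r : Fin m → ℝ, Function.Injective r ∧
      ∀ k, ((comb L m).map (Int.castRingHom ℝ)).eval (r k) = c := by
  set F : ℝ → ℝ := fun t => ((comb L m).map (Int.castRingHom ℝ)).eval t with hF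
  have hLr : (0 : ℝ) < L := Int.cast_pos.2 hL
  have hFe : ∀ t, F t = ∏ k : Fin m, (t - L * (k : ℕ)) := by
    intro t; simp [F, comb, Polynomial.map_prod, eval_prod]
  let T : ℕ → ℝ := fun k => L * k - L / 2
  have hfac : ∀ (k : ℕ) (j : Fin m), (L : ℝ) / 2 ≤ |T k - L * (j : ℕ)| := by
    intro k j
    rcases le_or_gt k (j : ℕ) with h | h
    · have : (k : ℝ) ≤ (j : ℕ) := by exact_mod_cast h
      rw [abs_of_neg (by simp only [T]; nlinarith)]
      simp only [T]; nlinarith
    · have : ((j : ℕ) : ℝ) + 1 ≤ k := by exact_mod_cast h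
      rw [abs_of_pos (by simp only [T]; nlinarith)]
      simp only [T]; nlinarith
  have hbig : ∀ k, |c| < |F (T k)| := by
    intro k
    refine hc.trans_le ?_
    rw [hFe, Finset.abs_prod]
    calc ((L : ℝ) / 2) ^ m = ∏ _j : Fin m, (L : ℝ) / 2 := by
          rw [Finset.prod_const, Finset.card_univ, Fintype.card_fin]
      _ ≤ _ := Finset.prod_le_prod (fun _ _ => by positivity) fun j _ => hfac k j
  have hsign : ∀ k : Fin m, F (T k) * F (T ((k : ℕ) + 1)) < 0 := by
    intro k
    rw [hFe, hFe, ← Finset.prod_mul_distrib, ← Finset.mul_prod_erase _ _ (Finset.mem_univ k)]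
    refine mul_neg_of_neg_of_pos ?_ (Finset.prod_pos fun j hj => ?_)
    · simp only [T]; push_cast; nlinarith
    · have hne : (j : ℕ) ≠ k := fun h => Finset.ne_of_mem_erase hj (Fin.ext h)
      rcases Nat.lt_or_gt_of_ne hne with h | h
      · have : ((j : ℕ) : ℝ) + 1 ≤ (k : ℕ) := by exact_mod_cast h
        simp only [T]; push_cast
        apply mul_pos <;> nlinarith
      · have : ((k : ℕ) : ℝ) + 1 ≤ (j : ℕ) := by exact_mod_cast h
        simp only [T]; push_cast
        apply mul_pos_of_neg_of_neg <;> nlinarith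
  have hroot : ∀ k : Fin m, ∃ t ∈ Set.Ioo (T k) (T ((k : ℕ) + 1)), F t = c := by
    intro k
    have hle : T k ≤ T ((k : ℕ) + 1) := by simp only [T]; push_cast; nlinarith
    have hcont : ContinuousOn F (Set.Icc (T k) (T ((k : ℕ) + 1))) :=
      (Polynomial.continuous _).continuousOn
    have h1 := hbig k
    have h2 := hbig ((k : ℕ) + 1)
    rcases mul_neg_iff.1 (hsign k) with ⟨ha, hb⟩ | ⟨ha, hb⟩
    · rw [abs_of_pos ha] at h1; rw [abs_of_neg hb] at h2
      exact intermediate_value_Ioo' hle hcont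
        ⟨by linarith [neg_abs_le c], by linarith [le_abs_self c]⟩
    · rw [abs_of_neg ha] at h1; rw [abs_of_pos hb] at h2
      exact intermediate_value_Ioo hle hcont
        ⟨by linarith [neg_abs_le c], by linarith [le_abs_self c]⟩
  choose r hr hrc using hroot
  refine ⟨r, StrictMono.injective fun a b hab => ?_, hrc⟩
  have : T ((a : ℕ) + 1) ≤ T b := by
    have h : (((a : ℕ) + 1 : ℕ) : ℝ) ≤ (b : ℕ) := by exact_mod_cast hab
    simp only [T]; nlinarith
  linarith [(hr a).2, (hr b).1]

/-- `∏_{k<d}(X - 8k) + 2`: a monic Eisenstein polynomial with `d` distinct real roots. -/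
noncomputable def base (d : ℕ) : ℤ[X] := comb 8 d + C 2

theorem base_monic {d : ℕ} (hd : 0 < d) : (base d).Monic := by
  refine (comb_monic 8 d).add_of_left (degree_C_le.trans_lt ?_)
  rw [degree_eq_natDegree (comb_monic 8 d).ne_zero, comb_natDegree]
  exact_mod_cast hd

theorem base_natDegree (d : ℕ) : (base d).natDegree = d := by
  rw [base, natDegree_add_C, comb_natDegree]

theorem base_map_two (d : ℕ) : (base d).map (Int.castRingHom (ZMod 2)) = X ^ d := by
  rw [base, Polynomial.map_add, comb_map_zmod (q := 2) (by norm_num) d, Polynomial.map_C]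
  have : (Int.castRingHom (ZMod 2)) 2 = 0 := by decide
  simp [this]

theorem irreducible_of_eisenstein_two {f : ℤ[X]} (hm : f.Monic) (hd : 0 < f.natDegree)
    (h2 : f.map (Int.castRingHom (ZMod 2)) = X ^ f.natDegree) (h4 : ¬ (4 : ℤ) ∣ f.eval 0) :
    Irreducible (f.map (algebraMap ℤ ℚ)) := by
  refine hm.irreducible_iff_irreducible_map_fraction_map.1 ?_
  have hprime : (Ideal.span {(2 : ℤ)}).IsPrime :=
    (Ideal.span_singleton_prime two_ne_zero).2 Int.prime_two
  refine IsEisensteinAt.irreducible (𝓟 := Ideal.span {(2 : ℤ)}) ?_ hprime hm.isPrimitive hd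
  refine hm.isEisensteinAt_of_mem_of_notMem hprime.ne_top (fun {k} hk => ?_) ?_
  · have := congrArg (fun p => coeff p k) h2
    simp only [coeff_map, coeff_X_pow, if_neg hk.ne] at this
    exact Ideal.mem_span_singleton.2 ((ZMod.intCast_zmod_eq_zero_iff_dvd _ 2).1 this)
  · rw [Ideal.span_singleton_pow, Ideal.mem_span_singleton, coeff_zero_eq_eval_zero]
    simpa using h4

theorem base_irreducible {d : ℕ} (hd : 0 < d) : Irreducible ((base d).map (algebraMap ℤ ℚ)) := by
  refine irreducible_of_eisenstein_two (base_monic hd) (by rwa [base_natDegree]) ?_ ?_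
  · rw [base_map_two, base_natDegree]
  · rw [base, eval_add, eval_C, comb_eval_zero 8 hd]; norm_num

theorem base_eval_mod_four {d : ℕ} (hd : 0 < d) {r : ℤ} (hr : (4 : ℤ) ∣ r) :
    ¬ (4 : ℤ) ∣ (base d).eval r := by
  intro h
  have h0 := (base d).sub_dvd_eval_sub r 0
  rw [sub_zero] at h0
  have := dvd_sub h (hr.trans h0)
  simp [base, comb_eval_zero 8 hd] at this

/-- Arbitrarily large primes dividing a value of `base d` exactly once. -/
theorem exists_prime_exactly (d : ℕ) (hd : 0 < d) (i : ℕ) :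
    ∃ (q : ℕ) (r : ℤ), q.Prime ∧ i < q ∧ (4 : ℤ) ∣ r ∧ (q : ℤ) ∣ (base d).eval r ∧
      ¬ (q : ℤ) ^ 2 ∣ (base d).eval r := by
  set g := base d with hg
  obtain ⟨a, b, hab⟩ := ((base_irreducible hd).separable : IsCoprime _ _)
  obtain ⟨s, hs, ha⟩ := IsLocalization.integerNormalization_spec (nonZeroDivisors ℤ) a
  obtain ⟨t, ht, hb⟩ := IsLocalization.integerNormalization_spec (nonZeroDivisors ℤ) b
  set A := IsLocalization.integerNormalization (nonZeroDivisors ℤ) a
  set B := IsLocalization.integerNormalization (nonZeroDivisors ℤ) b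
  have hbez : C t * A * g + C s * B * derivative g = C (s * t) := by
    apply map_injective (algebraMap ℤ ℚ) (RingHom.injective_int _)
    rw [derivative_map] at hab
    simp only [Polynomial.map_add, Polynomial.map_mul, map_C, ha, hb, map_mul]
    simp only [Algebra.smul_def,
      eq_intCast, map_intCast]
    linear_combination ((s : ℚ[X]) * (t : ℚ[X])) * hab
  have hst : s * t ≠ 0 :=
    mul_ne_zero (nonZeroDivisors.ne_zero hs) (nonZeroDivisors.ne_zero ht)
  set N : ℕ := (s * t).natAbs * (i + 1).factorial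
  have hN : (0 : ℤ) < N := by
    have : 0 < N := Nat.mul_pos (Int.natAbs_pos.2 hst) (Nat.factorial_pos _)
    exact_mod_cast this
  -- the finitely many exceptional arguments
  obtain ⟨x, hx⟩ : ∃ x : ℕ, g.eval (4 * (N : ℤ) * x) ≠ 2 ∧ g.eval (4 * (N : ℤ) * x) ≠ -2 := by
    have hfin : ∀ c : ℤ, {y : ℤ | g.eval y = c}.Finite := by
      intro c
      have hne : g - C c ≠ 0 := fun h => by
        have := congrArg natDegree h
        rw [natDegree_sub_C, base_natDegree, natDegree_zero] at this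
        omega
      refine (finite_setOfPred_isRoot hne).subset fun y hy => ?_
      simp only [Set.mem_ofPred_eq] at hy
      simp [IsRoot, hy]
    by_contra! hall
    have hinj : Function.Injective fun x : ℕ => 4 * (N : ℤ) * x := fun u v h => by
      have hN' : N ≠ 0 := by exact_mod_cast hN.ne'
      simpa [hN'] using h
    refine Set.infinite_range_of_injective hinj (((hfin 2).union (hfin (-2))).subset ?_)
    rintro _ ⟨x, rfl⟩
    by_cases h : g.eval (4 * (N : ℤ) * x) = 2
    · exact Or.inl h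
    · exact Or.inr (hall x h)
  set r : ℤ := 4 * (N : ℤ) * x with hr
  have h0 : g.eval 0 = 2 := by simp [hg, base, comb_eval_zero 8 hd]
  obtain ⟨w, hw⟩ := g.sub_dvd_eval_sub r 0
  rw [sub_zero, h0] at hw
  set v : ℤ := 1 + 2 * N * (x * w) with hv
  have hgv : g.eval r = 2 * v := by rw [hv]; rw [hr] at hw ⊢; linear_combination hw
  have hv1 : v.natAbs ≠ 1 := by
    intro h1
    rcases Int.natAbs_eq v with h | h <;> rw [h1] at h <;> simp [hgv, h] at hx
  set q := v.natAbs.minFac
  have hq : q.Prime := Nat.minFac_prime hv1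
  have hqv : (q : ℤ) ∣ v := Int.natCast_dvd.2 (Nat.minFac_dvd _)
  have hqN : ¬ (q : ℤ) ∣ 2 * (N : ℤ) := by
    intro h
    have : (q : ℤ) ∣ 1 := by
      have := dvd_sub hqv (h.mul_right (x * w))
      simpa [hv] using this
    exact hq.not_dvd_one (by exact_mod_cast this)
  have hiq : i < q := by
    by_contra hle
    apply hqN
    exact Dvd.dvd.mul_left (Int.natCast_dvd_natCast.2
      ((Nat.dvd_factorial hq.pos (by omega)).mul_left _)) 2
  have hqst : ¬ (q : ℤ) ∣ s * t := fun h => hqN (Dvd.dvd.mul_left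
    (Int.natCast_dvd_natCast.2 ((Int.natCast_dvd.1 h).mul_right _)) 2)
  have hq2 : ¬ (q : ℤ) ∣ 2 := fun h => hqN (h.mul_right _)
  have hqr : (q : ℤ) ∣ g.eval r := hgv ▸ hqv.mul_left 2
  have hr4 : (4 : ℤ) ∣ r := ⟨(N : ℤ) * x, by rw [hr]; ring⟩
  by_cases hsq : (q : ℤ) ^ 2 ∣ g.eval r
  swap
  · exact ⟨q, r, hq, hiq, hr4, hqr, hsq⟩
  have hder : ¬ (q : ℤ) ∣ (derivative g).eval r := by
    intro h
    apply hqst
    have := congrArg (Polynomial.eval r) hbez
    simp only [eval_add, eval_mul, eval_C] at this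
    exact this ▸ dvd_add (hqr.mul_left _) (h.mul_left _)
  obtain ⟨k, hk⟩ := g.binomExpansion r (4 * (q : ℤ))
  refine ⟨q, r + 4 * q, hq, hiq, dvd_add hr4 (dvd_mul_right _ _), ?_, ?_⟩
  · rw [hk]
    exact dvd_add (dvd_add hqr ((dvd_mul_left _ _).mul_left _))
      ⟨k * 16 * q, by ring⟩
  · rw [hk]
    intro h
    have h2 : (q : ℤ) ^ 2 ∣ (derivative g).eval r * (4 * q) := by
      have := dvd_sub (dvd_sub h hsq) (show (q : ℤ) ^ 2 ∣ k * (4 * q) ^ 2 from ⟨k * 16, by ring⟩)
      ring_nf at this ⊢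
      exact this
    have h3 : (q : ℤ) ∣ (derivative g).eval r * 4 := by
      rw [sq, ← mul_assoc] at h2
      exact (mul_dvd_mul_iff_right (by exact_mod_cast hq.ne_zero)).1 h2
    have hqp : Prime (q : ℤ) := Int.prime_iff_natAbs_prime.2 (by simpa using hq)
    rcases hqp.dvd_or_dvd h3 with h4 | h4
    · exact hder h4
    · exact hq2 (((show (4 : ℤ) = 2 * 2 from rfl) ▸ hqp.dvd_or_dvd (a := (2 : ℤ)) (b := 2)) h4
        |>.elim id id)

end Vale.Agent.P007
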