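import Vale.Agent.P007.Embeddings
import Vale.Agent.P007.Polys
import Mathlib.NumberTheory.NumberField.Units.DirichletTheorem
import Mathlib.RingTheory.AdjoinRoot
import Mathlib.RingTheory.Norm.Basic
import Mathlib.Logic.Equiv.Fin.Basic

namespace Vale.Agent.P007

open Polynomial NumberField
open scoped NumberField

/-- The fields `ℚ[X]/(g ∘ h_i)`, totally real of degree `d e`, contain the field `ℚ[X]/(g)`, have
unbounded discriminant, and contain a fixed totally positive non-rational unit with fixed
conjugates. -/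
theorem exists_family (d e : ℕ) (hd : 2 ≤ d) (he : 2 ≤ e) :
    ∃ (K : ℕ → Type) (_ : ∀ i, Field (K i)) (_ : ∀ i, NumberField (K i))
      (σ : ∀ i, Fin (d * e) ≃ (K i →+* ℝ)) (ε : ∀ i, 𝓞 (K i)) (s : Fin (d * e) → ℝ),
      (∀ i, Module.finrank ℚ (K i) = d * e) ∧ (∀ i, i < (discr (K i)).natAbs) ∧
        (∀ i j, σ i j (ε i : K i) = s j) ∧ ∏ j, s j = 1 ∧ ∃ j k, s j ≠ s k := by
  classical
  set g := base d with hg
  have hd0 : 0 < d := by omega
  have he0 : 0 < e := by omega
  have hgQ : Irreducible (g.map (algebraMap ℤ ℚ)) := base_irreducible hd0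
  have : Fact (Irreducible (g.map (algebraMap ℤ ℚ))) := ⟨hgQ⟩
  set gQ := g.map (algebraMap ℤ ℚ) with hgQ'
  have hgQdeg : gQ.natDegree = d := by rw [hgQ', (base_monic hd0).natDegree_map, base_natDegree]
  let F := AdjoinRoot gQ
  have : FiniteDimensional ℚ F := (AdjoinRoot.powerBasis hgQ.ne_zero).finite
  have : NumberField F := { to_charZero := inferInstance, to_finiteDimensional := inferInstance }
  have hFdeg : Module.finrank ℚ F = d := by
    rw [(AdjoinRoot.powerBasis hgQ.ne_zero).finrank, AdjoinRoot.powerBasis_dim, hgQdeg]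
  -- the roots of `g`
  obtain ⟨θ, hθinj, hθ⟩ := exists_comb_roots 8 (by norm_num) d (-2) (by
    have : (1 : ℝ) ≤ ((8 : ℤ) : ℝ) / 2 := by norm_num
    calc |(-2 : ℝ)| = 2 := by norm_num
      _ < (((8 : ℤ) : ℝ) / 2) ^ 1 := by norm_num
      _ ≤ _ := pow_le_pow_right₀ this hd0)
  have hθg : ∀ i, (g.map (Int.castRingHom ℝ)).eval (θ i) = 0 := by
    intro i; simp [hg, base, hθ i]
  have hτ : ∀ i, gQ.eval₂ (Rat.castHom ℝ) (θ i) = 0 := by
    intro i
    rw [hgQ', eval₂_map, RingHom.ext_int ((Rat.castHom ℝ).comp (algebraMap ℤ ℚ)) (Int.castRingHom ℝ),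
      ← eval_map, hθg]
  let τ : Fin d → (F →+* ℝ) := fun i => AdjoinRoot.lift (Rat.castHom ℝ) (θ i) (hτ i)
  have hτinj : Function.Injective τ := by
    intro a b h
    apply hθinj
    have h' := congrFun (congrArg DFunLike.coe h) (AdjoinRoot.root gQ)
    exact (AdjoinRoot.lift_root (hτ a)).symm.trans (h'.trans (AdjoinRoot.lift_root (hτ b)))
  -- a unit of infinite order
  have hrank : 0 < Units.rank F := by
    have hreal : 0 < InfinitePlace.nrRealPlaces F := by
      rw [← InfinitePlace.card_real_embeddings, Fintype.card_pos_iff]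
      refine ⟨⟨Complex.ofRealHom.comp (τ ⟨0, hd0⟩), ?_⟩⟩
      rw [ComplexEmbedding.isReal_iff]
      exact RingHom.ext fun x => Complex.conj_ofReal _
    have h1 := InfinitePlace.card_add_two_mul_card_eq_rank F
    have h2 := InfinitePlace.card_eq_nrRealPlaces_add_nrComplexPlaces F
    rw [hFdeg] at h1
    simp only [Units.rank]
    omega
  set u := Units.fundSystem F ⟨0, hrank⟩
  have hu : u ∉ Units.torsion F := by
    intro h
    have h0 := Units.dirichletUnitTheorem.logEmbedding_eq_zero_iff.2 h
    rw [Units.logEmbedding_fundSystem, ZeroMemClass.coe_eq_zero] at h0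
    exact (Units.basisUnitLattice F).ne_zero _ h0
  set uF : F := ((u : 𝓞 F) : F) with huF
  set s : Fin (d * e) → ℝ := fun j => τ (finProdFinEquiv.symm j).1 uF ^ 2 with hs
  -- the data for each index
  have hdata : ∀ i : ℕ, ∃ (K : Type) (_ : Field K) (_ : NumberField K)
      (σ : Fin (d * e) ≃ (K →+* ℝ)) (ι : F →+* K),
      Module.finrank ℚ K = d * e ∧ i < (discr K).natAbs ∧
        ∀ j, (σ j).comp ι = τ (finProdFinEquiv.symm j).1 := by
    intro i
    obtain ⟨q, r, hq, hiq, hr4, hqr, hqr2⟩ := exists_prime_exactly d hd0 i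
    have : Fact q.Prime := ⟨hq⟩
    obtain ⟨T, hT⟩ := exists_nat_gt (∑ i, (|θ i| + |(r : ℝ)|))
    set L : ℤ := 4 * q * (T + 1) with hL
    have hq1 : (1 : ℝ) ≤ q := by exact_mod_cast hq.one_le
    have hT0 : (0 : ℝ) ≤ T := Nat.cast_nonneg T
    have hLpos : 0 < L := by
      have := hq.pos
      positivity
    set h := comb L e + C r with hh
    have hhdeg : h.natDegree = e := by rw [hh, natDegree_add_C, comb_natDegree]
    have hhm : h.Monic := by
      refine (comb_monic L e).add_of_left (degree_C_le.trans_lt ?_)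
      rw [degree_eq_natDegree (comb_monic L e).ne_zero, comb_natDegree]
      exact_mod_cast he0
    set f := g.comp h with hf
    have hfm : f.Monic := (base_monic hd0).comp hhm (by omega)
    have hfdeg : f.natDegree = d * e := by
      rw [hf, natDegree_comp, hg, base_natDegree, hhdeg]
    have hh0 : h.eval 0 = r := by simp [hh, comb_eval_zero L he0]
    have hf0 : f.eval 0 = g.eval r := by rw [hf, eval_comp, hh0]
    have hfQ : Irreducible (f.map (algebraMap ℤ ℚ)) := by
      refine irreducible_of_eisenstein_two hfm (by rw [hfdeg]; positivity) ?_ ?_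
      · rw [hfdeg, hf, Polynomial.map_comp, hg, base_map_two, hh, Polynomial.map_add,
          comb_map_zmod (q := 2) ⟨2 * q * (T + 1), by rw [hL]; ring⟩, Polynomial.map_C]
        have : (Int.castRingHom (ZMod 2)) r = 0 :=
          (ZMod.intCast_zmod_eq_zero_iff_dvd _ 2).2 ((show (2 : ℤ) ∣ 4 by norm_num).trans hr4)
        rw [this, C_0, add_zero, X_pow_comp, ← pow_mul, mul_comm]
      · rw [hf0]; exact base_eval_mod_four hd0 hr4
    have : Fact (Irreducible (f.map (algebraMap ℤ ℚ))) := ⟨hfQ⟩
    set fQ := f.map (algebraMap ℤ ℚ) with hfQ'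
    have hfQdeg : fQ.natDegree = d * e := by rw [hfQ', hfm.natDegree_map, hfdeg]
    let K := AdjoinRoot fQ
    have : FiniteDimensional ℚ K := (AdjoinRoot.powerBasis hfQ.ne_zero).finite
    have : NumberField K := { to_charZero := inferInstance, to_finiteDimensional := inferInstance }
    have hKdeg : Module.finrank ℚ K = d * e := by
      rw [(AdjoinRoot.powerBasis hfQ.ne_zero).finrank, AdjoinRoot.powerBasis_dim, hfQdeg]
    set η : K := AdjoinRoot.root fQ with hη
    have hfη : aeval η f = 0 := by
      have := AdjoinRoot.aeval_eq fQ (f := fQ)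
      rw [AdjoinRoot.mk_self, hfQ', aeval_map_algebraMap] at this
      exact this
    set ξ : K := aeval η h with hξ
    have hgξ : gQ.eval₂ (algebraMap ℚ K) ξ = 0 := by
      rw [← aeval_def, hgQ', aeval_map_algebraMap, hξ, ← aeval_comp, ← hf, hfη]
    let ι : F →+* K := AdjoinRoot.lift (algebraMap ℚ K) ξ hgξ
    -- the real embeddings
    have hex : ∀ a : Fin d, ∃ r' : Fin e → ℝ, Function.Injective r' ∧
        ∀ k, ((comb L e).map (Int.castRingHom ℝ)).eval (r' k) = θ a - r := by
      intro a
      refine exists_comb_roots L hLpos e _ ?_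
      have h1 : |θ a - (r : ℝ)| < (T : ℝ) + 1 := by
        have h2 := Finset.single_le_sum (f := fun i => |θ i| + |(r : ℝ)|)
          (fun _ _ => by positivity) (Finset.mem_univ a)
        have := abs_sub (θ a) (r : ℝ)
        linarith
      have h3 : (L : ℝ) / 2 = 2 * q * (T + 1) := by rw [hL]; push_cast; ring
      have h4 : (T : ℝ) + 1 ≤ (L : ℝ) / 2 := by rw [h3]; nlinarith
      calc |θ a - (r : ℝ)| < ((L : ℝ) / 2) ^ 1 := by rw [pow_one]; linarith
        _ ≤ _ := pow_le_pow_right₀ (by linarith) he0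
    choose ρ hρinj hρ using hex
    let R : Fin (d * e) → ℝ := fun j => ρ (finProdFinEquiv.symm j).1 (finProdFinEquiv.symm j).2
    have hhR : ∀ j, (h.map (Int.castRingHom ℝ)).eval (R j) = θ (finProdFinEquiv.symm j).1 := by
      intro j; simp [hh, R, hρ]
    have hR : ∀ j, fQ.eval₂ (Rat.castHom ℝ) (R j) = 0 := by
      intro j
      rw [hfQ', eval₂_map, RingHom.ext_int ((Rat.castHom ℝ).comp (algebraMap ℤ ℚ))
        (Int.castRingHom ℝ), ← eval_map, hf, Polynomial.map_comp, eval_comp, hhR, hθg]
    let σ₀ : Fin (d * e) → (K →+* ℝ) := fun j => AdjoinRoot.lift (Rat.castHom ℝ) (R j) (hR j)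
    have hσ₀η : ∀ j, σ₀ j η = R j := fun j => AdjoinRoot.lift_root _
    have hσinj : Function.Injective σ₀ := by
      intro a b hab
      have hRab : R a = R b := by
        simpa [hσ₀η] using congrFun (congrArg DFunLike.coe hab) η
      have hfst : (finProdFinEquiv.symm a).1 = (finProdFinEquiv.symm b).1 :=
        hθinj (by rw [← hhR a, ← hhR b, hRab])
      have hsnd : (finProdFinEquiv.symm a).2 = (finProdFinEquiv.symm b).2 := by
        apply hρinj (finProdFinEquiv.symm a).1
        simp only [R] at hRab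
        rw [← hfst] at hRab
        exact hRab
      exact finProdFinEquiv.symm.injective (Prod.ext hfst hsnd)
    have hσcard : Nat.card (K →+* ℝ) ≤ d * e := by
      rw [Nat.card_congr (RingHom.equivRatAlgHom K ℝ), ← hKdeg]
      exact card_algHom_le_finrank ℚ K ℝ
    have : Finite (K →+* ℝ) := Finite.of_equiv _ (RingHom.equivRatAlgHom K ℝ).symm
    have hσbij : Function.Bijective σ₀ :=
      (Nat.bijective_iff_injective_and_card σ₀).2 ⟨hσinj, le_antisymm
        (Nat.card_le_card_of_injective σ₀ hσinj) (hσcard.trans (Nat.card_fin _).ge)⟩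
    refine ⟨K, inferInstance, inferInstance, Equiv.ofBijective σ₀ hσbij, ι, hKdeg, ?_, ?_⟩
    · -- `q` divides the discriminant
      have hηint : IsIntegral ℤ η := ⟨f, hfm, by rw [← aeval_def, hfη]⟩
      set y : 𝓞 K := ⟨η, hηint⟩ with hy
      have hmk : aeval y f = 0 := by
        apply RingOfIntegers.coe_injective
        rw [map_zero, ← aeval_algebraMap_apply]
        exact hfη
      -- `g(r + t) = g(r) + t S(t)`
      obtain ⟨S, hS⟩ : ∃ S : 𝓞 K, aeval (aeval y h) g - aeval (r : 𝓞 K) g =
          (aeval y h - (r : 𝓞 K)) * S := by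
        have := (g.map (algebraMap ℤ (𝓞 K))).sub_dvd_eval_sub (aeval y h) (r : 𝓞 K)
        rw [eval_map, eval_map, ← aeval_def, ← aeval_def] at this
        exact this
      obtain ⟨a, ha⟩ := hqr
      have hgr : aeval (r : 𝓞 K) g = (q : 𝓞 K) * (a : 𝓞 K) := by
        rw [show ((r : ℤ) : 𝓞 K) = algebraMap ℤ (𝓞 K) r by simp, aeval_algebraMap_apply_eq_algebraMap_eval,
          ha]
        simp
      rw [← aeval_comp, ← hf, hmk, zero_sub, hgr] at hS
      -- `h(η) - r = η ∏_{k ≠ 0} (η - L k)`
      obtain ⟨W, hW⟩ : ∃ W : 𝓞 K, aeval y h - (r : 𝓞 K) = y * (y ^ (e - 1) + (q : 𝓞 K) * W) := by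
        have h0 : (comb L e).map (Int.castRingHom (ZMod q)) = X ^ e :=
          comb_map_zmod ⟨4 * (T + 1), by rw [hL]; ring⟩ e
        have h1 : C (q : ℤ) ∣ comb L e - X ^ e := by
          rw [C_dvd_iff_dvd_coeff]
          intro k
          rw [← ZMod.intCast_zmod_eq_zero_iff_dvd]
          have := congrArg (fun p => coeff p k) h0
          simp only [coeff_map, coeff_X_pow, eq_intCast] at this
          rw [coeff_sub, coeff_X_pow, Int.cast_sub, this]
          split_ifs <;> simp
        obtain ⟨U, hU⟩ := h1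
        have hU0 : U.eval 0 = 0 := by
          have := congrArg (Polynomial.eval 0) hU
          simpa [comb_eval_zero L he0, hq.ne_zero, he0.ne'] using this
        obtain ⟨U', hU'⟩ := (X_dvd_iff.2 (by rwa [coeff_zero_eq_eval_zero]) : X ∣ U)
        refine ⟨aeval y U', ?_⟩
        have : comb L e = X ^ e + C (q : ℤ) * (X * U') := by rw [← hU', ← hU]; ring
        rw [hh, this]
        have hye : y * y ^ (e - 1) = y ^ e := by rw [← pow_succ']; congr 1; omega
        simp only [map_add, map_mul, map_pow, aeval_X, map_natCast, eq_intCast,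
          map_intCast]
        linear_combination -hye
      rw [hW] at hS
      set x : 𝓞 K := y * S with hx
      have hdisc : (q : ℤ) ∣ discr K := by
        refine dvd_discr_of_nilpotent_mod q x ?_ e ?_
        · rintro ⟨w, hw⟩
          have hqO : (q : 𝓞 K) ≠ 0 := Nat.cast_ne_zero.2 hq.ne_zero
          have hdiv : y ∣ (a : 𝓞 K) := by
            refine ⟨-(y ^ (e - 2) * w + W * S), mul_left_cancel₀ hqO ?_⟩
            have hsplit : y ^ (e - 1) = y * y ^ (e - 2) := by
              rw [← pow_succ']; congr 1; omega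
            rw [hx] at hw
            linear_combination -hS - (y * y ^ (e - 2)) * hw - (y * S) * hsplit
          obtain ⟨z, hz⟩ := hdiv
          have hN := congrArg (Algebra.norm ℤ) hz
          rw [map_mul, show (a : 𝓞 K) = algebraMap ℤ (𝓞 K) a by simp, Algebra.norm_algebraMap] at hN
          have hqN : (q : ℤ) ∣ Algebra.norm ℤ y := by
            have hpb : Algebra.norm ℚ η = (-1) ^ (d * e) * ((g.eval r : ℤ) : ℚ) := by
              have := Algebra.PowerBasis.norm_gen_eq_coeff_zero_minpoly
                (AdjoinRoot.powerBasis hfQ.ne_zero)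
              rw [AdjoinRoot.powerBasis_gen, AdjoinRoot.minpoly_root hfQ.ne_zero,
                (hfm.map _).leadingCoeff, inv_one, C_1, mul_one, AdjoinRoot.powerBasis_dim] at this
              have hk : (-1 : ℚ) ^ fQ.natDegree * fQ.coeff 0 =
                  (-1) ^ (d * e) * ((g.eval r : ℤ) : ℚ) := by
                rw [hfQdeg, hfQ', coeff_map, coeff_zero_eq_eval_zero, hf0]
                simp
              refine Eq.trans ?_ (this.trans hk)
              congr!
            have h1 : ((Algebra.norm ℤ y : ℤ) : ℚ) = (-1) ^ (d * e) * ((g.eval r : ℤ) : ℚ) := by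
              rw [Algebra.coe_norm_int, ← hpb]
              rfl
            have h2 : Algebra.norm ℤ y = (-1) ^ (d * e) * g.eval r := by exact_mod_cast h1
            rw [h2, ha]
            exact (dvd_mul_right _ _).mul_left _
          have hqa : (q : ℤ) ∣ a ^ Module.finrank ℤ (𝓞 K) := hN ▸ hqN.mul_right _
          refine hqr2 ?_
          rw [ha, sq]
          exact mul_dvd_mul_left _ ((Int.prime_iff_natAbs_prime.2 (by simpa using hq)).dvd_of_dvd_pow hqa)
        · refine ⟨-((a : 𝓞 K) + y * W * S) * S ^ (e - 1), ?_⟩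
          have h1 : y ^ e * S = (q : 𝓞 K) * -((a : 𝓞 K) + y * W * S) := by
            have hye : y * y ^ (e - 1) = y ^ e := by rw [← pow_succ']; congr 1; omega
            linear_combination -hS - S * hye
          calc x ^ e = y ^ e * S * S ^ (e - 1) := by
                rw [hx, mul_pow, mul_assoc, ← pow_succ']; congr 2; omega
            _ = _ := by rw [h1]; ring
      have := Int.natCast_dvd.1 hdisc
      exact hiq.trans_le (Nat.le_of_dvd (Int.natAbs_pos.2 (discr_ne_zero K)) this)
    · intro j
      refine RingHom.ext fun x => ?_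
      obtain ⟨p, rfl⟩ := AdjoinRoot.mk_surjective x
      change σ₀ j (AdjoinRoot.lift (algebraMap ℚ K) ξ hgξ (AdjoinRoot.mk gQ p)) =
        AdjoinRoot.lift (Rat.castHom ℝ) (θ _) (hτ _) (AdjoinRoot.mk gQ p)
      rw [AdjoinRoot.lift_mk, AdjoinRoot.lift_mk, hom_eval₂]
      congr 1
      · exact Subsingleton.elim _ _
      · rw [hξ, aeval_def, hom_eval₂, hσ₀η, RingHom.ext_int ((σ₀ j).comp (algebraMap ℤ K))
          (Int.castRingHom ℝ), ← eval_map, hhR]
  choose K instF instN σ ι hdeg hdisc hcomp using hdata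
  refine ⟨K, instF, instN, σ, fun i => (RingOfIntegers.mapRingHom (ι i) (u : 𝓞 F)) ^ 2, s, hdeg,
    hdisc, ?_, ?_, ?_⟩
  · intro i j
    simp only [map_pow, RingOfIntegers.mapRingHom_apply, hs, huF]
    rw [← hcomp i j]
    rfl
  · letI := instF 0
    letI := instN 0
    let b : Module.Basis (Fin (d * e)) ℚ (K 0) :=
      (Module.finBasis ℚ (K 0)).reindex (finCongr (hdeg 0))
    have h := prod_embeddings_unit_sq b (σ 0) (σ 0).injective
      (Units.map (RingOfIntegers.mapRingHom (ι 0)).toMonoidHom u)
    rw [← h]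
    refine Finset.prod_congr rfl fun j _ => ?_
    simp only [hs, huF]
    rw [← hcomp 0 j]
    rfl
  · by_contra! hall
    set c := s ⟨0, Nat.mul_pos hd0 he0⟩
    have hs1 : ∀ j, s j = c := fun j => hall j _
    have hprod : ∏ j, s j = 1 := by
      let _ := instF 0
      have := instN 0
      let b : Module.Basis (Fin (d * e)) ℚ (K 0) :=
        (Module.finBasis ℚ (K 0)).reindex (finCongr (hdeg 0))
      have h := prod_embeddings_unit_sq b (σ 0) (σ 0).injective
        (Units.map (RingOfIntegers.mapRingHom (ι 0)).toMonoidHom u)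
      rw [← h]
      refine Finset.prod_congr rfl fun j _ => ?_
      simp only [hs, huF]
      rw [← hcomp 0 j]
      rfl
    rw [Finset.prod_congr rfl fun j _ => hs1 j, Finset.prod_const, Finset.card_univ,
      Fintype.card_fin] at hprod
    have hc0 : 0 ≤ c := sq_nonneg _
    have hc1 : c = 1 := (pow_eq_one_iff_of_nonneg hc0 (Nat.mul_pos hd0 he0).ne').1 hprod
    have husq : u ^ 2 = 1 := by
      apply Units.ext
      apply RingOfIntegers.coe_injective
      apply (τ (finProdFinEquiv.symm ⟨0, Nat.mul_pos hd0 he0⟩).1).injective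
      simpa [c, hs, huF] using hc1
    exact hu ((CommGroup.mem_torsion _).2 (isOfFinOrder_iff_pow_eq_one.2 ⟨2, two_pos, husq⟩))

end Vale.Agent.P007
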