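import Vale.Agent.P007.Defs
import Mathlib.Topology.Algebra.ProperAction.Basic
import Mathlib.Topology.UrysohnsLemma
import Mathlib.Topology.Instances.Matrix
import Mathlib.Topology.Instances.Int
import Mathlib.Topology.Separation.Regular
import Mathlib.MeasureTheory.Integral.Bochner.Basic
import Mathlib.MeasureTheory.Function.LocallyIntegrable
import Mathlib.Tactic.LinearCombination

namespace Vale.Agent.P007

open Matrix MeasureTheory

variable {n : ℕ}

instance isClosed_intSL : IsClosed ((intSL n : Set (SpecialLinearGroup (Fin n) ℝ))) := by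
  have h : Topology.IsClosedEmbedding ((↑) : ℤ → ℝ) := Int.isClosedEmbedding_coe_real
  exact (Topology.IsClosedEmbedding.specialLinearGroup_map (f := Int.castRingHom ℝ) h).isClosed_range

instance : LocallyCompactSpace (SpecialLinearGroup (Fin n) ℝ) :=
  haveI : LocallyCompactSpace (Matrix (Fin n) (Fin n) ℝ) :=
    inferInstanceAs (LocallyCompactSpace (Fin n → Fin n → ℝ))
  (SpecialLinearGroup.isClosedEmbedding_val).locallyCompactSpace

instance : SecondCountableTopology (SpecialLinearGroup (Fin n) ℝ) :=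
  haveI : SecondCountableTopology (Matrix (Fin n) (Fin n) ℝ) :=
    inferInstanceAs (SecondCountableTopology (Fin n → Fin n → ℝ))
  (SpecialLinearGroup.isClosedEmbedding_val).isEmbedding.secondCountableTopology

/-- The points fixed by `a`. -/
def fixedSet (a : SpecialLinearGroup (Fin n) ℝ) : Set (Space n) := {x | a • x = x}

theorem isClosed_fixedSet (a : SpecialLinearGroup (Fin n) ℝ) : IsClosed (fixedSet a) :=
  isClosed_eq (continuous_const_smul a) continuous_id

theorem mk_mem_fixedSet {a g : SpecialLinearGroup (Fin n) ℝ} :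
    (g : Space n) ∈ fixedSet a ↔ g⁻¹ * a * g ∈ intSL n := by
  change ((a * g : SpecialLinearGroup (Fin n) ℝ) : Space n) = g ↔ _
  rw [eq_comm, QuotientGroup.eq, mul_assoc]

/-- A diagonal element which is not a scalar moves some point. -/
theorem exists_notMem_fixedSet {a : SpecialLinearGroup (Fin n) ℝ} {s : Fin n → ℝ}
    (ha : (a : Matrix (Fin n) (Fin n) ℝ) = diagonal s) {j k : Fin n} (hjk : s j ≠ s k) :
    ∃ x, x ∉ fixedSet a := by
  have hne : j ≠ k := fun h => hjk (h ▸ rfl)
  set t : ℝ := (2 * (s j - s k))⁻¹ with ht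
  let g : SpecialLinearGroup (Fin n) ℝ := ⟨transvection j k t, det_transvection_of_ne j k hne t⟩
  refine ⟨(g : Space n), fun hg => ?_⟩
  obtain ⟨γ, hγ⟩ := mk_mem_fixedSet.1 hg
  have h2 : a * g = g * SpecialLinearGroup.map (Int.castRingHom ℝ) γ := by
    rw [hγ]; group
  have hjj := congrFun₂ (congrArg (fun m : SpecialLinearGroup (Fin n) ℝ =>
    (m : Matrix (Fin n) (Fin n) ℝ)) h2) j k
  have hkk := congrFun₂ (congrArg (fun m : SpecialLinearGroup (Fin n) ℝ =>
    (m : Matrix (Fin n) (Fin n) ℝ)) h2) k k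
  set M := (γ : Matrix (Fin n) (Fin n) ℤ)
  have hg' : (g : Matrix (Fin n) (Fin n) ℝ) = transvection j k t := rfl
  have hm : ((SpecialLinearGroup.map (Int.castRingHom ℝ) γ :
      SpecialLinearGroup (Fin n) ℝ) : Matrix (Fin n) (Fin n) ℝ) = M.map (Int.cast) := rfl
  simp only [SpecialLinearGroup.coe_mul, ha, hg', hm, diagonal_mul, transvection_mul_apply_same,
    transvection_mul_apply_of_ne j k k k hne.symm, map_apply] at hjj hkk
  simp [transvection, hne, hne.symm] at hjj hkk
  have h3 : (2 : ℝ) * (M j k : ℝ) = 1 := by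
    have hd : s j - s k ≠ 0 := sub_ne_zero.2 hjk
    have e : t * (2 * (s j - s k)) = 1 := inv_mul_cancel₀ (by simpa using hd)
    rw [← hkk] at hjj
    linear_combination (-2 : ℝ) * hjj + e
  have h4 : (2 : ℤ) * M j k = 1 := by exact_mod_cast h3
  omega

/-- A test function which vanishes on the points fixed by `a`. -/
theorem exists_testFunction {a : SpecialLinearGroup (Fin n) ℝ} {x : Space n}
    (hx : x ∉ fixedSet a) :
    ∃ f : C(Space n, ℝ), HasCompactSupport f ∧ (∀ y, f y ∈ Set.Icc 0 1) ∧ f x = 1 ∧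
      ∀ y ∈ fixedSet a, f y = 0 := by
  obtain ⟨f, h1, h0, hc, hI⟩ := exists_continuous_one_zero_of_isCompact (isCompact_singleton (x := x))
    (isClosed_fixedSet a) (Set.disjoint_singleton_left.2 hx)
  exact ⟨f, hc, hI, h1 rfl, fun y hy => h0 hy⟩

/-- Every invariant probability measure gives positive integral to a nonnegative continuous
function with compact support which is not identically zero. -/
theorem integral_pos_of_invariant [MeasurableSpace (Space n)] [BorelSpace (Space n)]
    (m : Measure (Space n)) [IsProbabilityMeasure m]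
    (hm : ∀ g : SpecialLinearGroup (Fin n) ℝ, m.map (g • ·) = m)
    (f : C(Space n, ℝ)) (hc : HasCompactSupport f) (h0 : ∀ y, 0 ≤ f y) {x : Space n}
    (hx : f x ≠ 0) : 0 < ∫ y, f y ∂m := by
  have hint : Integrable f m := f.continuous.integrable_of_hasCompactSupport hc
  rw [integral_pos_iff_support_of_nonneg h0 hint]
  set U := Function.support f
  have hU : IsOpen U := isOpen_ne_fun f.continuous continuous_const
  by_contra hzero
  rw [not_lt, nonpos_iff_eq_zero] at hzero
  obtain ⟨T, hT, hcov⟩ := TopologicalSpace.isOpen_iUnion_countable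
    (fun g : SpecialLinearGroup (Fin n) ℝ => (fun y => g • y) ⁻¹' U)
    (fun g => hU.preimage (continuous_const_smul g))
  have huniv : (⋃ g : SpecialLinearGroup (Fin n) ℝ, (fun y => g • y) ⁻¹' U) = Set.univ := by
    refine Set.eq_univ_of_forall fun y => Set.mem_iUnion.2 ?_
    obtain ⟨g, hg⟩ := MulAction.exists_smul_eq (SpecialLinearGroup (Fin n) ℝ) y x
    exact ⟨g, show g • y ∈ U by rw [hg]; exact hx⟩
  have : m Set.univ = 0 := by
    rw [← huniv, ← hcov]
    refine (measure_biUnion_null_iff hT).2 fun g _ => ?_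
    rw [← Measure.map_apply (continuous_const_smul g).measurable hU.measurableSet, hm g]
    exact hzero
  simp at this

/-- A unit of the order gives a diagonal matrix fixing every lattice of the packet. -/
theorem packet_subset_fixedSet {K : Type} [Field K] {O : Subring K} {σ : Fin n ≃ (K →+* ℝ)}
    {ε : K} (hε : ε ∈ O) {a : SpecialLinearGroup (Fin n) ℝ}
    (ha : (a : Matrix (Fin n) (Fin n) ℝ) = diagonal fun j => σ j ε)
    {P : Set (Space n)} (hP : P ∈ packet O σ) : P ⊆ fixedSet a := by
  obtain ⟨I, w, c, g, -, -, -, hlat, rfl⟩ := hP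
  have key : ∀ v : Fin n → ℤ, ∃ v' : Fin n → ℤ,
      (g : Matrix (Fin n) (Fin n) ℝ) *ᵥ (fun j => (v' j : ℝ)) =
        (a : Matrix (Fin n) (Fin n) ℝ) *ᵥ ((g : Matrix (Fin n) (Fin n) ℝ) *ᵥ fun j => (v j : ℝ)) := by
    intro v
    have hv : ((g : Matrix (Fin n) (Fin n) ℝ) *ᵥ fun j => (v j : ℝ)) ∈ latticeOf g := ⟨v, rfl⟩
    rw [hlat] at hv
    obtain ⟨α, hα, hv⟩ := hv
    have : (fun j => w j * (c * σ j (ε * α))) ∈ latticeOf g := by
      rw [hlat]
      exact ⟨ε * α, I.smul_mem ⟨ε, hε⟩ hα, rfl⟩
    obtain ⟨v', hv'⟩ := this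
    refine ⟨v', hv'.trans ?_⟩
    rw [← hv, ha]
    ext j
    simp [mulVec_diagonal, map_mul]
    ring
  choose φ hφ using key
  let M : Matrix (Fin n) (Fin n) ℤ := Matrix.of fun j k => φ (Pi.single k 1) j
  have hM : (g : Matrix (Fin n) (Fin n) ℝ) * M.map (Int.cast : ℤ → ℝ) =
      (a : Matrix (Fin n) (Fin n) ℝ) * (g : Matrix (Fin n) (Fin n) ℝ) := by
    ext j k
    have h1 := congrFun (hφ (Pi.single k 1)) j
    have h2 : (fun l => (((Pi.single k 1 : Fin n → ℤ) l : ℤ) : ℝ)) = Pi.single k 1 := by
      ext l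
      by_cases h : l = k
      · subst h; simp
      · simp [h]
    rw [h2, mulVec_single_one] at h1
    simpa [mul_apply, mulVec, dotProduct, M, Matrix.col] using h1
  have hdet : M.det = 1 := by
    have := congrArg Matrix.det hM
    rw [det_mul, det_mul, SpecialLinearGroup.det_coe, SpecialLinearGroup.det_coe, one_mul,
      mul_one, show M.map (Int.cast : ℤ → ℝ) = (Int.castRingHom ℝ).mapMatrix M from rfl,
      ← RingHom.map_det] at this
    simpa using this
  have hfix : (g : Space n) ∈ fixedSet a := by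
    rw [mk_mem_fixedSet]
    refine ⟨⟨M, hdet⟩, ?_⟩
    rw [eq_comm, mul_assoc, inv_mul_eq_iff_eq_mul]
    exact Subtype.ext hM.symm
  rintro _ ⟨u, rfl⟩
  have hcomm : a * diagExp u = diagExp u * a := by
    apply Subtype.ext
    rw [SpecialLinearGroup.coe_mul, SpecialLinearGroup.coe_mul, ha,
      show ((diagExp u : SpecialLinearGroup (Fin n) ℝ) : Matrix (Fin n) (Fin n) ℝ) =
        diagonal (fun j => Real.exp (u.1 j)) from rfl]
    simp [diagonal_mul_diagonal, mul_comm]
  change a • diagExp u • (g : Space n) = diagExp u • (g : Space n)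
  rw [smul_smul, hcomm, ← smul_smul]
  exact congrArg _ hfix

end Vale.Agent.P007
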